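import Vale.Agent.Lib.P074.Defs

/-!
# P074, job B1a: the swap competitor inequality

If `S` is an optimal map from the uniform measure on `K` and finitely many pairwise disjoint
balls of the same radius lie in `K`, then cyclically permuting the balls by translations
gives a competitor; optimality yields `swap_ineq`.
-/

namespace Vale.Agent.Lib.P074

open MeasureTheory

section swap

variable {d : ℕ}

/-- Sum of the constant fields `e i` cut off to the sets `B i`. -/
noncomputable def shiftFun {ι : Type} [Fintype ι] (B : ι → Set (E d)) (e : ι → E d)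
    (z : E d) : E d :=
  ∑ i, (B i).indicator (fun _ => e i) z

lemma shiftFun_of_mem {ι : Type} [Fintype ι] (B : ι → Set (E d)) (e : ι → E d)
    (hB : Pairwise (fun i j => Disjoint (B i) (B j))) {i : ι} {z : E d} (hz : z ∈ B i) :
    shiftFun B e z = e i := by
  classical
  unfold shiftFun
  rw [Finset.sum_eq_single i]
  · simp [hz]
  · intro j _ hji
    have : z ∉ B j := fun hzj => Set.disjoint_left.mp (hB hji) hzj hz
    simp [this]
  · intro h
    exact absurd (Finset.mem_univ i) h

lemma shiftFun_of_not_mem {ι : Type} [Fintype ι] (B : ι → Set (E d)) (e : ι → E d)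
    {z : E d} (hz : ∀ i, z ∉ B i) : shiftFun B e z = 0 := by
  unfold shiftFun
  exact Finset.sum_eq_zero (fun i _ => by simp [hz i])

lemma measurable_shiftFun {ι : Type} [Fintype ι] (B : ι → Set (E d)) (e : ι → E d)
    (hB : ∀ i, MeasurableSet (B i)) : Measurable (shiftFun B e) := by
  unfold shiftFun
  exact Finset.measurable_sum _ (fun i _ => measurable_const.indicator (hB i))

/-- Piecewise translation of pairwise disjoint sets `B i` onto `B (i + 1)` by `e i`
preserves Lebesgue measure. -/
lemma map_shift_volume {n : ℕ} (B : Fin (n + 1) → Set (E d)) (e : Fin (n + 1) → E d)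
    (hBmeas : ∀ i, MeasurableSet (B i))
    (hdisj : Pairwise (fun i j => Disjoint (B i) (B j)))
    (hpre : ∀ i, (fun z => z + e i) ⁻¹' (B (i + 1)) = B i) :
    (volume : Measure (E d)).map (fun z => z + shiftFun B e z) = volume := by
  classical
  set τ : E d → E d := fun z => z + shiftFun B e z with hτdef
  have hτm : Measurable τ := measurable_id.add (measurable_shiftFun B e hBmeas)
  have hτin : ∀ i z, z ∈ B i → τ z = z + e i := by
    intro i z hz
    simp only [hτdef, shiftFun_of_mem B e hdisj hz]
  have hτout : ∀ z, (∀ i, z ∉ B i) → τ z = z := by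
    intro z hz
    simp only [hτdef, shiftFun_of_not_mem B e hz, add_zero]
  have hU : MeasurableSet (⋃ i, B i) := MeasurableSet.iUnion hBmeas
  have hdecomp : (volume : Measure (E d))
      = volume.restrict (⋃ i, B i)ᶜ + ∑ i, volume.restrict (B i) := by
    rw [← Measure.sum_fintype, ← Measure.restrict_iUnion hdisj hBmeas, add_comm,
      Measure.restrict_add_restrict_compl hU]
  have h1 : (volume.restrict (⋃ i, B i)ᶜ).map τ = volume.restrict (⋃ i, B i)ᶜ := by
    have hc : τ =ᵐ[volume.restrict (⋃ i, B i)ᶜ] id := by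
      filter_upwards [ae_restrict_mem hU.compl] with z hz
      exact hτout z (fun i hi => hz (Set.mem_iUnion.mpr ⟨i, hi⟩))
    rw [Measure.map_congr hc, Measure.map_id]
  have h2 : ∀ i, (volume.restrict (B i)).map τ = volume.restrict (B (i + 1)) := by
    intro i
    have hc : τ =ᵐ[volume.restrict (B i)] (fun z => z + e i) := by
      filter_upwards [ae_restrict_mem (hBmeas i)] with z hz
      exact hτin i z hz
    calc (volume.restrict (B i)).map τ
        = (volume.restrict (B i)).map (fun z => z + e i) := Measure.map_congr hc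
      _ = (volume.restrict ((fun z => z + e i) ⁻¹' (B (i + 1)))).map (fun z => z + e i) := by
          rw [hpre]
      _ = ((volume : Measure (E d)).map (fun z => z + e i)).restrict (B (i + 1)) :=
          (Measure.restrict_map (measurable_add_const (e i)) (hBmeas (i + 1))).symm
      _ = volume.restrict (B (i + 1)) := by rw [map_add_right_eq_self]
  calc (volume : Measure (E d)).map τ
      = (volume.restrict (⋃ i, B i)ᶜ + ∑ i, volume.restrict (B i)).map τ := by
        rw [← hdecomp]
    _ = (volume.restrict (⋃ i, B i)ᶜ).map τ + ∑ i, (volume.restrict (B i)).map τ := by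
        rw [Measure.map_add _ _ hτm]
        congr 1
        rw [← Measure.mapₗ_apply_of_measurable hτm, map_sum]
        simp only [Measure.mapₗ_apply_of_measurable hτm]
    _ = volume.restrict (⋃ i, B i)ᶜ + ∑ i, volume.restrict (B (i + 1)) := by
        rw [h1]
        congr 1
        exact Finset.sum_congr rfl (fun i _ => h2 i)
    _ = volume.restrict (⋃ i, B i)ᶜ + ∑ i, volume.restrict (B i) := by
        congr 1
        exact Equiv.sum_comp (Equiv.addRight (1 : Fin (n + 1)))
          (fun i => (volume : Measure (E d)).restrict (B i))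
    _ = volume := hdecomp.symm

theorem swap_ineq {d : ℕ} (K : Set (E d)) (hK : IsCompact K) (hint : (interior K).Nonempty)
    (ν : Measure (E d)) (S : E d → E d) (hS : IsOptMap (unif K) ν S) (R : ℝ)
    (hR : ∀ᵐ x ∂(unif K), ‖S x‖ ≤ R)
    (n : ℕ) (x : Fin (n + 1) → E d) (r : ℝ) (hr : 0 < r)
    (hdisj : Pairwise (fun i j => Disjoint (Metric.ball (x i) r) (Metric.ball (x j) r)))
    (hsub : ∀ i, Metric.ball (x i) r ⊆ K) :
    0 ≤ ∑ i, ∫ y in Metric.ball (x i) r,
      (‖x (i + 1) - x i‖ ^ 2 + 2 * inner ℝ (x (i + 1) - x i) (y - S y)) := by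
  classical
  have _hr := hr
  obtain ⟨hSm, hSν, hopt⟩ := hS
  set B : Fin (n + 1) → Set (E d) := fun i => Metric.ball (x i) r with hBdef
  set e : Fin (n + 1) → E d := fun i => x (i + 1) - x i with hedef
  have hBmeas : ∀ i, MeasurableSet (B i) := fun i => measurableSet_ball
  have hpre : ∀ i, (fun z => z + e i) ⁻¹' (B (i + 1)) = B i := by
    intro i
    ext z
    simp only [Set.mem_preimage, hBdef, hedef, Metric.mem_ball, dist_eq_norm]
    have : z + (x (i + 1) - x i) - x (i + 1) = z - x i := by abel
    rw [this]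
  have hshift : ∀ i z, z ∈ B i → z + e i ∈ B (i + 1) := by
    intro i z hz
    have : z ∈ (fun z => z + e i) ⁻¹' (B (i + 1)) := by rw [hpre]; exact hz
    exact this
  have hinj : Function.Injective (fun i : Fin (n + 1) => i + 1) := add_left_injective 1
  have hdisj' : Pairwise (fun i j : Fin (n + 1) => Disjoint (B (i + 1)) (B (j + 1))) := by
    intro i j hij
    exact hdisj (fun h => hij (hinj h))
  set τ : E d → E d := fun z => z + shiftFun B e z with hτdef
  set σ : E d → E d := fun y => y - shiftFun (fun i => B (i + 1)) e y with hσdef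
  have hτm : Measurable τ := measurable_id.add (measurable_shiftFun B e hBmeas)
  have hσm : Measurable σ :=
    measurable_id.sub (measurable_shiftFun _ e (fun i => hBmeas (i + 1)))
  have hτin : ∀ i z, z ∈ B i → τ z = z + e i := by
    intro i z hz
    simp only [hτdef, shiftFun_of_mem B e hdisj hz]
  have hτout : ∀ z, (∀ i, z ∉ B i) → τ z = z := by
    intro z hz
    simp only [hτdef, shiftFun_of_not_mem B e hz, add_zero]
  have hστ : ∀ z, σ (τ z) = z := by
    intro z
    by_cases hz : ∃ i, z ∈ B i
    · obtain ⟨i, hi⟩ := hz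
      rw [hτin i z hi]
      simp only [hσdef]
      rw [shiftFun_of_mem (fun i => B (i + 1)) e hdisj' (hshift i z hi)]
      abel
    · rw [not_exists] at hz
      rw [hτout z hz]
      simp only [hσdef]
      rw [shiftFun_of_not_mem]
      · simp
      · intro i
        exact hz (i + 1)
  have hvol : (volume : Measure (E d)).map τ = volume :=
    map_shift_volume B e hBmeas hdisj hpre
  have hKm : MeasurableSet K := hK.measurableSet
  have hpreK : τ ⁻¹' K = K := by
    ext z
    simp only [Set.mem_preimage]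
    by_cases hz : ∃ i, z ∈ B i
    · obtain ⟨i, hi⟩ := hz
      rw [hτin i z hi]
      exact ⟨fun _ => hsub i hi, fun _ => hsub (i + 1) (hshift i z hi)⟩
    · rw [not_exists] at hz
      rw [hτout z hz]
  have hρ : (unif K).map τ = unif K := by
    unfold unif
    rw [Measure.map_smul]
    congr 1
    calc (volume.restrict K).map τ = (volume.restrict (τ ⁻¹' K)).map τ := by rw [hpreK]
      _ = ((volume : Measure (E d)).map τ).restrict K := (Measure.restrict_map hτm hKm).symm
      _ = volume.restrict K := by rw [hvol]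
  have hρσ : (unif K).map σ = unif K := by
    calc (unif K).map σ = ((unif K).map τ).map σ := by rw [hρ]
      _ = (unif K).map (σ ∘ τ) := Measure.map_map hσm hτm
      _ = (unif K).map id := by
          congr 1
          funext z
          exact hστ z
      _ = unif K := Measure.map_id
  have hcomp : (unif K).map (S ∘ σ) = ν := by
    rw [← Measure.map_map hSm hσm, hρσ, hSν]
  have hle := hopt (S ∘ σ) (hSm.comp hσm) hcomp
  have hrhs : ∫⁻ y, ENNReal.ofReal (‖y - (S ∘ σ) y‖ ^ 2) ∂(unif K)
      = ∫⁻ z, ENNReal.ofReal (‖τ z - S z‖ ^ 2) ∂(unif K) := by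
    have hmeas : Measurable (fun y => ENNReal.ofReal (‖y - (S ∘ σ) y‖ ^ 2)) :=
      ENNReal.measurable_ofReal.comp (((measurable_id.sub (hSm.comp hσm)).norm).pow_const 2)
    conv_lhs => rw [← hρ]
    rw [lintegral_map hmeas hτm]
    simp only [Function.comp, hστ]
  rw [hrhs] at hle
  -- pass to Lebesgue measure on `K`
  have hvolK_pos : 0 < volume K :=
    lt_of_lt_of_le (isOpen_interior.measure_pos volume hint) (measure_mono interior_subset)
  have hvolK_fin : volume K ≠ ⊤ := hK.measure_lt_top.ne
  have hc0 : (volume K)⁻¹ ≠ 0 := ENNReal.inv_ne_zero.mpr hvolK_fin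
  have hctop : (volume K)⁻¹ ≠ ⊤ := ENNReal.inv_ne_top.mpr hvolK_pos.ne'
  unfold unif at hle hR
  rw [lintegral_smul_measure, lintegral_smul_measure] at hle
  have hle' : ∫⁻ z in K, ENNReal.ofReal (‖z - S z‖ ^ 2)
      ≤ ∫⁻ z in K, ENNReal.ofReal (‖τ z - S z‖ ^ 2) := by
    rw [smul_eq_mul, smul_eq_mul] at hle
    exact (ENNReal.mul_le_mul_iff_right hc0 hctop).mp hle
  have hR' : ∀ᵐ z ∂(volume.restrict K), ‖S z‖ ≤ R := by
    rw [ae_iff] at hR ⊢
    rw [Measure.smul_apply, smul_eq_mul, mul_eq_zero] at hR
    exact hR.resolve_left hc0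
  obtain ⟨M, hM⟩ := hK.isBounded.exists_norm_le
  set f : E d → ℝ := fun z => ‖z - S z‖ ^ 2 with hfdef
  set g : E d → ℝ := fun z => ‖τ z - S z‖ ^ 2 with hgdef
  have hfm : Measurable f := ((measurable_id.sub hSm).norm).pow_const 2
  have hgm : Measurable g := ((hτm.sub hSm).norm).pow_const 2
  have hfb : ∀ᵐ z ∂(volume.restrict K), ‖f z‖ ≤ (M + R) ^ 2 := by
    filter_upwards [hR', ae_restrict_mem hKm] with z hz hzK
    have h1 : ‖z - S z‖ ≤ M + R := (norm_sub_le _ _).trans (add_le_add (hM z hzK) hz)
    simp only [hfdef, Real.norm_eq_abs, abs_pow, abs_norm]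
    exact pow_le_pow_left₀ (norm_nonneg _) h1 2
  have hgb : ∀ᵐ z ∂(volume.restrict K), ‖g z‖ ≤ (M + R) ^ 2 := by
    filter_upwards [hR', ae_restrict_mem hKm] with z hz hzK
    have hτK : τ z ∈ K := by
      have : z ∈ τ ⁻¹' K := by rw [hpreK]; exact hzK
      exact this
    have h1 : ‖τ z - S z‖ ≤ M + R := (norm_sub_le _ _).trans (add_le_add (hM _ hτK) hz)
    simp only [hgdef, Real.norm_eq_abs, abs_pow, abs_norm]
    exact pow_le_pow_left₀ (norm_nonneg _) h1 2
  have hfi : IntegrableOn f K volume :=
    Measure.integrableOn_of_bounded hvolK_fin hfm.aestronglyMeasurable hfb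
  have hgi : IntegrableOn g K volume :=
    Measure.integrableOn_of_bounded hvolK_fin hgm.aestronglyMeasurable hgb
  have hf0 : ∀ z, 0 ≤ f z := fun z => sq_nonneg _
  have hg0 : ∀ z, 0 ≤ g z := fun z => sq_nonneg _
  have hreal : ∫ z in K, f z ≤ ∫ z in K, g z := by
    have h1 := ofReal_integral_eq_lintegral_ofReal hfi (Filter.Eventually.of_forall hf0)
    have h2 := ofReal_integral_eq_lintegral_ofReal hgi (Filter.Eventually.of_forall hg0)
    have h3 : ENNReal.ofReal (∫ z in K, f z) ≤ ENNReal.ofReal (∫ z in K, g z) := by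
      rw [h1, h2]
      exact hle'
    exact (ENNReal.ofReal_le_ofReal_iff (integral_nonneg hg0)).mp h3
  have hdiff : 0 ≤ ∫ z in K, (g z - f z) := by
    rw [integral_sub hgi hfi]
    linarith
  -- localize to the balls
  have hzero : ∀ z ∈ K \ ⋃ i, B i, g z - f z = 0 := by
    intro z hz
    have hz' : ∀ i, z ∉ B i := fun i hi => hz.2 (Set.mem_iUnion.mpr ⟨i, hi⟩)
    simp only [hgdef, hfdef, hτout z hz', sub_self]
  have hUK : (⋃ i, B i) ⊆ K := Set.iUnion_subset hsub
  have hstep1 : ∫ z in K, (g z - f z) = ∫ z in ⋃ i, B i, (g z - f z) :=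
    setIntegral_eq_of_subset_of_forall_sdiff_eq_zero hKm hUK hzero
  have hgfi : ∀ i, IntegrableOn (fun z => g z - f z) (B i) volume :=
    fun i => (hgi.sub hfi).mono_set (hsub i)
  have hstep2 : ∫ z in ⋃ i, B i, (g z - f z) = ∑ i, ∫ z in B i, (g z - f z) :=
    integral_iUnion_fintype hBmeas hdisj hgfi
  have hstep3 : ∀ i, ∫ z in B i, (g z - f z)
      = ∫ y in Metric.ball (x i) r,
        (‖x (i + 1) - x i‖ ^ 2 + 2 * inner ℝ (x (i + 1) - x i) (y - S y)) := by
    intro i
    refine setIntegral_congr_fun (hBmeas i) ?_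
    intro z hz
    simp only [hgdef, hfdef]
    rw [hτin i z hz]
    have : z + e i - S z = e i + (z - S z) := by abel
    rw [this, norm_add_sq_real]
    ring
  rw [hstep1, hstep2] at hdiff
  calc (0 : ℝ) ≤ ∑ i, ∫ z in B i, (g z - f z) := hdiff
    _ = _ := Finset.sum_congr rfl (fun i _ => hstep3 i)

end swap

end Vale.Agent.Lib.P074
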